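import Vale.Agent.P204.Basic

/-! Triples of closed two-forms on the four-torus: wedge pairing, periods and the cup product
identity (P247). -/

namespace Vale.Agent.P247

open scoped ContDiff
open MeasureTheory Set Vale.Agent.P204

/-- The coefficient of `dx₀∧dx₁∧dx₂∧dx₃` in the wedge product of two two-forms. -/
def wedge (M N : Matrix (Fin 4) (Fin 4) ℝ) : ℝ :=
  M 0 1 * N 2 3 + M 2 3 * N 0 1 - M 0 2 * N 1 3 - M 1 3 * N 0 2 + M 0 3 * N 1 2 + M 1 2 * N 0 3

/-- The periods of a two-form: the averages of its coefficients over the unit cube. -/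
noncomputable def period (W : (Fin 4 → ℝ) → Matrix (Fin 4) (Fin 4) ℝ) :
    Matrix (Fin 4) (Fin 4) ℝ :=
  Matrix.of fun a b => ∫ x in Icc (0 : Fin 4 → ℝ) 1, W x a b

/-- A hypersymplectic triple on `ℝ⁴ / ℤ⁴` with its standard orientation. -/
def IsHypersymplectic (w : Fin 3 → (Fin 4 → ℝ) → Matrix (Fin 4) (Fin 4) ℝ) : Prop :=
  (∀ i, IsClosedForm (w i)) ∧
  ∀ x, ∀ c : Fin 3 → ℝ, c ≠ 0 → 0 < ∑ i, ∑ j, c i * c j * wedge (w i x) (w j x)

/-- The triple has Gram matrix the identity. -/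
def IsNormalized (w : Fin 3 → (Fin 4 → ℝ) → Matrix (Fin 4) (Fin 4) ℝ) : Prop :=
  ∀ i j, ∫ x in Icc (0 : Fin 4 → ℝ) 1, wedge (w i x) (w j x) = if i = j then 1 else 0

theorem wedge_comm (M N : Matrix (Fin 4) (Fin 4) ℝ) : wedge M N = wedge N M := by
  simp only [wedge]; ring

theorem wedge_add_left (M M' N : Matrix (Fin 4) (Fin 4) ℝ) :
    wedge (M + M') N = wedge M N + wedge M' N := by
  simp only [wedge, Matrix.add_apply]; ring

theorem wedge_smul_left (r : ℝ) (M N : Matrix (Fin 4) (Fin 4) ℝ) :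
    wedge (r • M) N = r * wedge M N := by
  simp only [wedge, Matrix.smul_apply, smul_eq_mul]; ring

theorem wedge_add_right (M N N' : Matrix (Fin 4) (Fin 4) ℝ) :
    wedge M (N + N') = wedge M N + wedge M N' := by
  simp only [wedge, Matrix.add_apply]; ring

theorem wedge_smul_right (r : ℝ) (M N : Matrix (Fin 4) (Fin 4) ℝ) :
    wedge M (r • N) = r * wedge M N := by
  simp only [wedge, Matrix.smul_apply, smul_eq_mul]; ring

theorem continuous_wedge {X : Type} [TopologicalSpace X] {F G : X → Matrix (Fin 4) (Fin 4) ℝ}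
    (hF : ∀ a b, Continuous fun x => F x a b) (hG : ∀ a b, Continuous fun x => G x a b) :
    Continuous fun x => wedge (F x) (G x) := by
  simp only [wedge]
  exact (((((hF 0 1).mul (hG 2 3)).add ((hF 2 3).mul (hG 0 1))).sub ((hF 0 2).mul (hG 1 3))).sub
    ((hF 1 3).mul (hG 0 2))).add ((hF 0 3).mul (hG 1 2)) |>.add ((hF 1 2).mul (hG 0 3))

theorem closed_const {C : Matrix (Fin 4) (Fin 4) ℝ} (hC : ∀ a b, C b a = -C a b) :
    IsClosedForm fun _ => C :=
  ⟨fun _ _ => contDiff_const, fun _ a b => hC a b, fun _ _ => rfl, fun x a b c => by simp⟩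

theorem closed_translate {B : (Fin 4 → ℝ) → Matrix (Fin 4) (Fin 4) ℝ} (hB : IsClosedForm B)
    (s : Fin 4 → ℝ) : IsClosedForm fun x => B (x + s) := by
  obtain ⟨h1, h2, h3, h4⟩ := hB
  refine ⟨fun a b => (h1 a b).comp (contDiff_id.add contDiff_const), fun x => h2 _,
    fun x k => ?_, fun x a b c => ?_⟩
  · show B (x + Pi.single k 1 + s) = B (x + s)
    rw [add_right_comm, h3]
  · simp only [fderiv_comp_add_right (f := fun y => B y b c) s,
      fderiv_comp_add_right (f := fun y => B y c a) s,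
      fderiv_comp_add_right (f := fun y => B y a b) s]
    exact h4 _ a b c

/-- The flux whose divergence is the wedge product with a derivative of the second form. -/
def flux (M N : Matrix (Fin 4) (Fin 4) ℝ) (k : Fin 4) : Fin 4 → ℝ :=
  ![M 2 3 * N k 1 - M 1 3 * N k 2 + M 1 2 * N k 3,
    -(M 2 3 * N k 0) - M 0 2 * N k 3 + M 0 3 * N k 2,
    M 0 1 * N k 3 + M 1 3 * N k 0 - M 0 3 * N k 1,
    -(M 0 1 * N k 2) + M 0 2 * N k 1 - M 1 2 * N k 0]

theorem continuous_flux {X : Type} [TopologicalSpace X] {F G : X → Matrix (Fin 4) (Fin 4) ℝ}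
    (hF : ∀ a b, Continuous fun x => F x a b) (hG : ∀ a b, Continuous fun x => G x a b)
    (k p : Fin 4) : Continuous fun x => flux (F x) (G x) k p := by
  fin_cases p <;> simp [flux] <;> fun_prop

theorem shift_step {A B : (Fin 4 → ℝ) → Matrix (Fin 4) (Fin 4) ℝ} (hA : IsClosedForm A)
    (hB : IsClosedForm B) (k : Fin 4) {h : ℝ} (hh : 0 ≤ h) :
    ∫ x in Icc (0 : Fin 4 → ℝ) 1, wedge (A x) (B (x + Pi.single k h)) =
      ∫ x in Icc (0 : Fin 4 → ℝ) 1, wedge (A x) (B x) := by
  obtain ⟨hAs, hAk, hAp, hAc⟩ := hA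
  obtain ⟨hBs, hBk, hBp, hBc⟩ := hB
  let P : (Fin 5 → ℝ) → (Fin 4 → ℝ) := fun z i => z i.succ
  let Y : (Fin 5 → ℝ) → (Fin 4 → ℝ) := fun z => P z + z 0 • Pi.single k (1 : ℝ)
  let PL : (Fin 5 → ℝ) →L[ℝ] (Fin 4 → ℝ) :=
    ContinuousLinearMap.pi fun i => ContinuousLinearMap.proj i.succ
  let YL : (Fin 5 → ℝ) →L[ℝ] (Fin 4 → ℝ) :=
    PL + (ContinuousLinearMap.proj (R := ℝ) (φ := fun _ : Fin 5 => ℝ) 0).smulRight
      (Pi.single k (1 : ℝ))
  have hPd : ∀ z, HasFDerivAt P PL z := fun z => PL.hasFDerivAt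
  have hYd : ∀ z, HasFDerivAt Y YL z := fun z => YL.hasFDerivAt
  let g : Fin 5 → (Fin 5 → ℝ) → ℝ := Fin.cons (fun z => wedge (A (P z)) (B (Y z)))
    fun p z => -flux (A (P z)) (B (Y z)) k p
  have ha : ∀ a b, ContDiff ℝ ∞ fun z => A (P z) a b := fun a b => (hAs a b).comp PL.contDiff
  have hb : ∀ a b, ContDiff ℝ ∞ fun z => B (Y z) a b := fun a b => (hBs a b).comp YL.contDiff
  have hda : ∀ a b z, HasFDerivAt (fun z => A (P z) a b)
      ((fderiv ℝ (fun y => A y a b) (P z)).comp PL) z := fun a b z =>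
    (((hAs a b).differentiable (by simp)) (P z)).hasFDerivAt.comp z (hPd z)
  have hdb : ∀ a b z, HasFDerivAt (fun z => B (Y z) a b)
      ((fderiv ℝ (fun y => B y a b) (Y z)).comp YL) z := fun a b z =>
    (((hBs a b).differentiable (by simp)) (Y z)).hasFDerivAt.comp z (hYd z)
  have hg : ∀ i, ContDiff ℝ ∞ (g i) := by
    intro i
    induction i using Fin.cases with
    | zero => simp only [g, Fin.cons_zero, wedge]; fun_prop
    | succ p =>
      simp only [g, Fin.cons_succ]
      fin_cases p <;> simp [flux] <;> fun_prop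
  have hPz : ∀ z : Fin 5 → ℝ, ∀ q : Fin 4, PL (Pi.single q.succ 1) = Pi.single q 1 := by
    intro z q; funext i; simp [PL, Pi.single_apply]
  have hP0 : PL (Pi.single 0 1) = 0 := by funext i; simp [PL, Pi.single_apply]
  have hYz : ∀ q : Fin 4, YL (Pi.single q.succ 1) = Pi.single q 1 := by
    intro q; funext i; simp [YL, PL, Pi.single_apply]
  have hY0 : YL (Pi.single 0 1) = Pi.single k 1 := by
    funext i; simp [YL, PL, Pi.single_apply]
  have hdiv : ∀ z, ∑ i, fderiv ℝ (g i) z (Pi.single i 1) = 0 := by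
    intro z
    have da : ∀ a b v, fderiv ℝ (fun z => A (P z) a b) z v =
        fderiv ℝ (fun y => A y a b) (P z) (PL v) := fun a b v => by
      rw [(hda a b z).fderiv]; rfl
    have db : ∀ a b v, fderiv ℝ (fun z => B (Y z) a b) z v =
        fderiv ℝ (fun y => B y a b) (Y z) (YL v) := fun a b v => by
      rw [(hdb a b z).fderiv]; rfl
    have dA : ∀ a b, DifferentiableAt ℝ (fun z => A (P z) a b) z := fun a b =>
      (hda a b z).differentiableAt
    have dB : ∀ a b, DifferentiableAt ℝ (fun z => B (Y z) a b) z := fun a b =>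
      (hdb a b z).differentiableAt
    have sB : ∀ a b v, fderiv ℝ (fun y => B y b a) (Y z) v =
        -fderiv ℝ (fun y => B y a b) (Y z) v := fun a b v => by
      rw [show (fun y => B y b a) = fun y => -B y a b from funext fun y => hBk y a b,
        fderiv_fun_neg]; rfl
    have sA : ∀ a b v, fderiv ℝ (fun y => A y b a) (P z) v =
        -fderiv ℝ (fun y => A y a b) (P z) v := fun a b v => by
      rw [show (fun y => A y b a) = fun y => -A y a b from funext fun y => hAk y a b,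
        fderiv_fun_neg]; rfl
    have dm : ∀ a b c d, HasFDerivAt (fun z => A (P z) a b * B (Y z) c d)
        (A (P z) a b • ((fderiv ℝ (fun y => B y c d) (Y z)).comp YL) +
          B (Y z) c d • ((fderiv ℝ (fun y => A y a b) (P z)).comp PL)) z := fun a b c d =>
      (hda a b z).mul (hdb c d z)
    have d0 := ((((dm 0 1 2 3).add (dm 2 3 0 1)).sub (dm 0 2 1 3)).sub (dm 1 3 0 2)).add
      (dm 0 3 1 2) |>.add (dm 1 2 0 3)
    have d1 := ((dm 2 3 k 1).sub (dm 1 3 k 2)).add (dm 1 2 k 3) |>.neg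
    have d2 := (((dm 2 3 k 0).neg).sub (dm 0 2 k 3)).add (dm 0 3 k 2) |>.neg
    have d3 := ((dm 0 1 k 3).add (dm 1 3 k 0)).sub (dm 0 3 k 1) |>.neg
    have d4 := (((dm 0 1 k 2).neg).add (dm 0 2 k 1)).sub (dm 1 2 k 0) |>.neg
    have g0 : HasFDerivAt (g 0) _ z := d0
    have g1 : HasFDerivAt (g (Fin.succ 0)) _ z := d1
    have g2 : HasFDerivAt (g (Fin.succ 1)) _ z := d2
    have g3 : HasFDerivAt (g (Fin.succ 2)) _ z := d3
    have g4 : HasFDerivAt (g (Fin.succ 3)) _ z := d4
    rw [Fin.sum_univ_succ, Fin.sum_univ_four, g0.fderiv, g1.fderiv, g2.fderiv, g3.fderiv,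
      g4.fderiv]
    simp only [_root_.add_apply, _root_.sub_apply, _root_.neg_apply, _root_.smul_apply,
      ContinuousLinearMap.comp_apply, smul_eq_mul, hP0, hY0, hPz z, hYz, map_zero]
    have e : ∀ p q, fderiv ℝ (fun y => B y p q) (Y z) (Pi.single k 1) =
        fderiv ℝ (fun y => B y k q) (Y z) (Pi.single p 1) -
          fderiv ℝ (fun y => B y k p) (Y z) (Pi.single q 1) := fun p q => by
      have := hBc (Y z) k p q
      rw [sB k q] at this
      linarith
    rw [e 2 3, e 0 1, e 1 3, e 0 2, e 1 2, e 0 3]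
    have c1 := hAc (P z) 0 2 3
    have c2 := hAc (P z) 0 1 3
    have c3 := hAc (P z) 0 1 2
    have c0 := hAc (P z) 1 2 3
    rw [sA 0 3, ] at c1
    rw [sA 0 3] at c2
    rw [sA 0 2] at c3
    rw [sA 1 3] at c0
    linear_combination (-(B (Y z) k 1)) * c1 + B (Y z) k 2 * c2 - B (Y z) k 3 * c3
      + B (Y z) k 0 * c0
  let hi : Fin 5 → ℝ := Fin.cons h 1
  have hle : (0 : Fin 5 → ℝ) ≤ hi := by
    intro i; induction i using Fin.cases <;> simp [hi, hh]
  have key := integral_divergence_of_hasFDerivAt_off_countable (0 : Fin 5 → ℝ) hi hle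
    (fun x i => g i x) (fun x => ContinuousLinearMap.pi fun i => fderiv ℝ (g i) x) ∅
    countable_empty (continuous_pi fun i => (hg i).continuous).continuousOn
    (fun x _ => hasFDerivAt_pi.2 fun i =>
      (((hg i).differentiable (by simp)) x).hasFDerivAt)
    (by simp [hdiv])
  simp only [ContinuousLinearMap.pi_apply, hdiv, integral_zero] at key
  rw [Fin.sum_univ_succ] at key
  have hz : ∀ p : Fin 4, ∀ x : Fin 4 → ℝ,
      g p.succ (Fin.insertNth p.succ (hi p.succ) x) =
        g p.succ (Fin.insertNth p.succ ((0 : Fin 5 → ℝ) p.succ) x) := by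
    intro p x
    have e : (Fin.insertNth p.succ (hi p.succ) x : Fin 5 → ℝ) =
        (Fin.insertNth p.succ ((0 : Fin 5 → ℝ) p.succ) x : Fin 5 → ℝ) + Pi.single p.succ 1 := by
      funext j
      induction j using Fin.succAboveCases p.succ with
      | x => simp [hi]
      | p i => simp [Fin.succAbove_ne]
    rw [e]
    have eP : ∀ w : Fin 5 → ℝ, P (w + Pi.single p.succ 1) = P w + Pi.single p 1 := by
      intro w; funext i; simp [P, Pi.single_apply]
    have eY : ∀ w : Fin 5 → ℝ, Y (w + Pi.single p.succ 1) = Y w + Pi.single p 1 := by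
      intro w
      simp only [Y, eP, Pi.add_apply]
      rw [Pi.single_eq_of_ne (Fin.succ_ne_zero p).symm, add_zero]
      abel
    simp only [g, Fin.cons_succ, eP, eY, hAp, hBp]
  simp only [hz, sub_self, Finset.sum_const_zero, add_zero] at key
  have eP : ∀ r : ℝ, ∀ x : Fin 4 → ℝ, P (Fin.insertNth 0 r x) = x := by
    intro r x; funext i; simp [P]
  have eY : ∀ r : ℝ, ∀ x : Fin 4 → ℝ, Y (Fin.insertNth 0 r x) = x + Pi.single k r := by
    intro r x
    simp only [Y, eP, Fin.insertNth_apply_same, ← Pi.single_smul, smul_eq_mul, mul_one]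
  simp only [g, Fin.cons_zero, eP, eY, hi, Fin.succAbove_zero, Function.comp_def, Fin.cons_succ,
    Pi.zero_apply, Pi.single_zero, add_zero] at key
  exact sub_eq_zero.1 key.symm

end Vale.Agent.P247
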