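import Vale.Agent.P247.Basic

/-! The linear path from a hypersymplectic triple on the four-torus to its periods (P247). -/

namespace Vale.Agent.P247

open scoped ContDiff
open MeasureTheory Set Vale.Agent.P204

theorem shift_all {A B : (Fin 4 → ℝ) → Matrix (Fin 4) (Fin 4) ℝ} (hA : IsClosedForm A)
    (hB : IsClosedForm B) {s : Fin 4 → ℝ} (hs : 0 ≤ s) :
    ∫ x in Icc (0 : Fin 4 → ℝ) 1, wedge (A x) (B (x + s)) =
      ∫ x in Icc (0 : Fin 4 → ℝ) 1, wedge (A x) (B x) := by
  have e : s = Pi.single 0 (s 0) + Pi.single 1 (s 1) + Pi.single 2 (s 2) + Pi.single 3 (s 3) := by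
    funext i; fin_cases i <;> simp
  have step : ∀ (T : Fin 4 → ℝ) (k : Fin 4), ∀ r : ℝ, 0 ≤ r →
      ∫ x in Icc (0 : Fin 4 → ℝ) 1, wedge (A x) (B (x + (T + Pi.single k r))) =
        ∫ x in Icc (0 : Fin 4 → ℝ) 1, wedge (A x) (B (x + T)) := by
    intro T k r hr
    have h := shift_step hA (closed_translate hB T) k hr
    simpa only [add_assoc, add_comm T (Pi.single k r)] using h
  rw [e, step _ 3 _ (hs 3), step _ 2 _ (hs 2), step _ 1 _ (hs 1)]
  exact shift_step hA hB 0 (hs 0)

theorem integral_wedge_const {F : (Fin 4 → ℝ) → Matrix (Fin 4) (Fin 4) ℝ}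
    (hF : ∀ a b, Continuous fun x => F x a b) (C : Matrix (Fin 4) (Fin 4) ℝ) :
    ∫ x in Icc (0 : Fin 4 → ℝ) 1, wedge (F x) C = wedge (period F) C := by
  have hi : ∀ a b (r : ℝ), IntegrableOn (fun x => F x a b * r) (Icc (0 : Fin 4 → ℝ) 1) :=
    fun a b r => ((hF a b).mul continuous_const).integrableOn_Icc
  simp only [wedge, period, Matrix.of_apply]
  rw [integral_add, integral_add, integral_sub, integral_sub, integral_add]
  · simp only [integral_mul_const]
  · exact hi _ _ _
  · exact hi _ _ _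
  · exact (hi _ _ _).add (hi _ _ _)
  · exact hi _ _ _
  · exact ((hi _ _ _).add (hi _ _ _)).sub (hi _ _ _)
  · exact hi _ _ _
  · exact (((hi _ _ _).add (hi _ _ _)).sub (hi _ _ _)).sub (hi _ _ _)
  · exact hi _ _ _
  · exact ((((hi _ _ _).add (hi _ _ _)).sub (hi _ _ _)).sub (hi _ _ _)).add (hi _ _ _)
  · exact hi _ _ _

theorem integral_wedge_const_right {F : (Fin 4 → ℝ) → Matrix (Fin 4) (Fin 4) ℝ}
    (hF : ∀ a b, Continuous fun x => F x a b) (C : Matrix (Fin 4) (Fin 4) ℝ) :
    ∫ x in Icc (0 : Fin 4 → ℝ) 1, wedge C (F x) = wedge C (period F) := by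
  simp only [wedge_comm C]
  exact integral_wedge_const hF C

theorem integral_wedge {A B : (Fin 4 → ℝ) → Matrix (Fin 4) (Fin 4) ℝ} (hA : IsClosedForm A)
    (hB : IsClosedForm B) :
    ∫ x in Icc (0 : Fin 4 → ℝ) 1, wedge (A x) (B x) = wedge (period A) (period B) := by
  set S : Set (Fin 4 → ℝ) := Icc 0 1 with hS
  set I := ∫ x in S, wedge (A x) (B x)
  have hcA : ∀ a b, Continuous fun x => A x a b := fun a b => (hA.1 a b).continuous
  have hcB : ∀ a b, Continuous fun x => B x a b := fun a b => (hB.1 a b).continuous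
  have hu : Continuous (Function.uncurry fun s x => wedge (A x) (B (x + s))) :=
    continuous_wedge (fun a b => (hcA a b).comp continuous_snd)
      fun a b => (hcB a b).comp (continuous_snd.add continuous_fst)
  have hint : Integrable (Function.uncurry fun s x => wedge (A x) (B (x + s)))
      ((volume.restrict S).prod (volume.restrict S)) := by
    rw [Measure.prod_restrict]
    exact hu.continuousOn.integrableOn_compact (isCompact_Icc.prod isCompact_Icc)
  have hvol : volume.real S = 1 := by
    simp [S, measureReal_def, Real.volume_Icc_pi]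
  have h1 : ∫ s in S, ∫ x in S, wedge (A x) (B (x + s)) = I := by
    rw [setIntegral_congr_fun measurableSet_Icc (g := fun _ => I)
      (fun s hs => shift_all hA hB hs.1), setIntegral_const, hvol, one_smul]
  have h2 : ∀ x ∈ S, ∫ s in S, wedge (A x) (B (x + s)) = wedge (A x) (period B) := by
    intro x hx
    rw [← integral_wedge_const_right hcB (A x),
      ← shift_all (closed_const (hA.2.1 x)) hB hx.1]
    simp only [add_comm x]
    rfl
  rw [integral_integral_swap hint, setIntegral_congr_fun measurableSet_Icc h2,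
    integral_wedge_const hcA] at h1
  exact h1.symm

theorem wedge_self_split (M : Matrix (Fin 4) (Fin 4) ℝ) : 2 * wedge M M =
    ((M 0 1 + M 2 3) ^ 2 + (M 0 2 - M 1 3) ^ 2 + (M 0 3 + M 1 2) ^ 2) -
      ((M 0 1 - M 2 3) ^ 2 + (M 0 2 + M 1 3) ^ 2 + (M 0 3 - M 1 2) ^ 2) := by
  simp only [wedge]; ring

/-- Signature: there is no orthogonal family of four positive two-forms. -/
theorem no_four_positive (v : Fin 4 → Matrix (Fin 4) (Fin 4) ℝ)
    (horth : ∀ i j, i ≠ j → wedge (v i) (v j) = 0) (hpos : ∀ i, 0 < wedge (v i) (v i)) :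
    False := by
  let P : Fin 4 → Fin 3 → ℝ := fun i =>
    ![v i 0 1 + v i 2 3, v i 0 2 - v i 1 3, v i 0 3 + v i 1 2]
  have hdep : ¬LinearIndependent ℝ P := fun h => by
    simpa using h.fintype_card_le_finrank
  obtain ⟨c, hc, i, hi⟩ := Fintype.not_linearIndependent_iff.1 hdep
  have e0 := congrFun hc 0
  have e1 := congrFun hc 1
  have e2 := congrFun hc 2
  simp [P, Fin.sum_univ_four] at e0 e1 e2
  let M := c 0 • v 0 + c 1 • v 1 + c 2 • v 2 + c 3 • v 3
  have hM : wedge M M = ∑ i, c i ^ 2 * wedge (v i) (v i) := by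
    simp [M, Fin.sum_univ_four, wedge_add_left, wedge_add_right, wedge_smul_left,
      wedge_smul_right, horth]
    ring
  have hle : 2 * wedge M M ≤ 0 := by
    rw [wedge_self_split]
    have f0 : M 0 1 + M 2 3 = 0 := by simp [M]; linarith
    have f1 : M 0 2 - M 1 3 = 0 := by simp [M]; linarith
    have f2 : M 0 3 + M 1 2 = 0 := by simp [M]; linarith
    rw [f0, f1, f2]
    nlinarith [sq_nonneg (M 0 1 - M 2 3), sq_nonneg (M 0 2 + M 1 3), sq_nonneg (M 0 3 - M 1 2)]
  have hgt : 0 < ∑ i, c i ^ 2 * wedge (v i) (v i) :=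
    Finset.sum_pos' (fun j _ => mul_nonneg (sq_nonneg _) (hpos j).le)
      ⟨i, Finset.mem_univ _, mul_pos (by positivity) (hpos i)⟩
  linarith

theorem sum_wedge (c : Fin 3 → ℝ) (M N : Fin 3 → Matrix (Fin 4) (Fin 4) ℝ) :
    ∑ i, ∑ j, c i * c j * wedge (M i) (N j) =
      wedge (c 0 • M 0 + c 1 • M 1 + c 2 • M 2) (c 0 • N 0 + c 1 • N 1 + c 2 • N 2) := by
  simp [Fin.sum_univ_three, wedge_add_left, wedge_add_right, wedge_smul_left, wedge_smul_right]
  ring

/-- The triples covered: two constant members, or positive pairing with the periods. -/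
theorem main (w : Fin 3 → (Fin 4 → ℝ) → Matrix (Fin 4) (Fin 4) ℝ)
    (hw : IsHypersymplectic w) (hn : IsNormalized w)
    (hcase : ((∀ x, w 0 x = w 0 0) ∧ ∀ x, w 1 x = w 1 0) ∨
      ∀ x, ∀ c : Fin 3 → ℝ, c ≠ 0 → 0 < ∑ i, ∑ j, c i * c j * wedge (w i x) (period (w j))) :
    ∃ Φ : ℝ → Fin 3 → (Fin 4 → ℝ) → Matrix (Fin 4) (Fin 4) ℝ,
      (∀ i a b, ContDiff ℝ ∞ fun p : ℝ × (Fin 4 → ℝ) => Φ p.1 i p.2 a b) ∧ Φ 0 = w ∧
      (∀ t ∈ Icc (0 : ℝ) 1, IsHypersymplectic (Φ t) ∧ ∀ i, period (Φ t i) = period (w i)) ∧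
      ∃ h : (Fin 4 → ℝ) → ℝ, (∀ x, 0 < h x) ∧
        ∀ x i j, wedge (Φ 1 i x) (Φ 1 j x) = if i = j then 2 * h x else 0 := by
  obtain ⟨hcl, hpos⟩ := hw
  set B : Fin 3 → Matrix (Fin 4) (Fin 4) ℝ := fun i => period (w i) with hBdef
  have hcw : ∀ i a b, Continuous fun x => w i x a b := fun i a b => ((hcl i).1 a b).continuous
  have hG : ∀ i j, wedge (B i) (B j) = if i = j then 1 else 0 := fun i j => by
    rw [← hn i j, integral_wedge (hcl i) (hcl j)]
  have hvol : volume.real (Icc (0 : Fin 4 → ℝ) 1) = 1 := by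
    simp [measureReal_def, Real.volume_Icc_pi]
  have hperc : ∀ C : Matrix (Fin 4) (Fin 4) ℝ, period (fun _ => C) = C := fun C => by
    ext a b; simp [period, hvol]
  have hBskew : ∀ i a b, B i b a = -B i a b := fun i a b => by
    simp only [B, period, Matrix.of_apply, (hcl i).2.1 _ a b, integral_neg]
  let Φ : ℝ → Fin 3 → (Fin 4 → ℝ) → Matrix (Fin 4) (Fin 4) ℝ :=
    fun t i x => (1 - t) • w i x + t • B i
  have key : ∀ x, ∀ c : Fin 3 → ℝ, c ≠ 0 → ∀ t ∈ Icc (0 : ℝ) 1,
      0 < ∑ i, ∑ j, c i * c j * wedge (Φ t i x) (Φ t j x) := by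
    rcases hcase with ⟨h0, h1⟩ | hpair
    · have b0 : ∀ x, w 0 x = B 0 := fun x => by
        rw [h0 x, hBdef]; simp only; rw [show w 0 = fun _ => w 0 0 from funext h0, hperc]
      have b1 : ∀ x, w 1 x = B 1 := fun x => by
        rw [h1 x, hBdef]; simp only; rw [show w 1 = fun _ => w 1 0 from funext h1, hperc]
      have schur : ∀ x, 0 < wedge (w 2 x) (w 2 x) - wedge (w 2 x) (B 0) ^ 2 -
          wedge (w 2 x) (B 1) ^ 2 := by
        intro x
        have := hpos x ![-wedge (w 2 x) (B 0), -wedge (w 2 x) (B 1), 1]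
          (fun h => by simpa using congrFun h 2)
        simp [Fin.sum_univ_three, b0, b1, hG, wedge_comm _ (w 2 x)] at this
        nlinarith
      let p : (Fin 4 → ℝ) → ℝ := fun x => wedge (w 2 x) (B 2)
      have pne : ∀ x, p x ≠ 0 := by
        intro x hp
        let n := w 2 x + (-wedge (w 2 x) (B 0)) • B 0 + (-wedge (w 2 x) (B 1)) • B 1
        refine no_four_positive ![B 0, B 1, B 2, n] ?_ ?_
        · have hp' : wedge (w 2 x) (B 2) = 0 := hp
          intro i j hij
          fin_cases i <;> fin_cases j <;>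
            simp [n, wedge_add_left, wedge_add_right, wedge_smul_left, wedge_smul_right, hG,
              wedge_comm _ (w 2 x), hp', -neg_smul] at hij ⊢
        · intro i
          fin_cases i <;>
            simp [n, wedge_add_left, wedge_add_right, wedge_smul_left, wedge_smul_right, hG,
              wedge_comm _ (w 2 x), -neg_smul]
          nlinarith [schur x]
      have pc : Continuous p := continuous_wedge (hcw 2) fun _ _ => continuous_const
      have pint : ∫ x in Icc (0 : Fin 4 → ℝ) 1, p x = 1 := by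
        simp only [p]; rw [integral_wedge_const (hcw 2)]; simpa using hG 2 2
      have ppos : ∀ x, 0 < p x := by
        intro x
        by_contra hx
        have hx : p x ≤ 0 := not_lt.1 hx
        have hall : ∀ y, p y ≤ 0 := by
          intro y
          by_contra hy
          obtain ⟨z, hz⟩ := intermediate_value_univ x y pc ⟨hx, (not_le.1 hy).le⟩
          exact pne z hz
        have : ∫ x in Icc (0 : Fin 4 → ℝ) 1, p x ≤ 0 :=
          setIntegral_nonpos measurableSet_Icc fun y _ => hall y
        linarith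
      intro x c hc t ht
      rw [sum_wedge c (fun i => Φ t i x) fun j => Φ t j x]
      simp [Φ, b0, b1, wedge_add_left, wedge_add_right, wedge_smul_left, wedge_smul_right, hG,
        wedge_comm _ (w 2 x)]
      have hs := schur x
      have hp : 0 < wedge (w 2 x) (B 2) := ppos x
      obtain ⟨ht0, ht1⟩ := ht
      set α := wedge (w 2 x) (B 0)
      set β := wedge (w 2 x) (B 1)
      set q := wedge (w 2 x) (w 2 x)
      set r := wedge (w 2 x) (B 2)
      set u := c 0 + c 2 * (1 - t) * α with hu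
      set v := c 1 + c 2 * (1 - t) * β with hv
      have hA : 0 < (1 - t) ^ 2 * (q - α ^ 2 - β ^ 2) + 2 * (1 - t) * t * r + t ^ 2 := by
        rcases eq_or_lt_of_le ht0 with h | h
        · rw [← h]; nlinarith
        · have : 0 ≤ (1 - t) * t * r := by have := sub_nonneg.2 ht1; positivity
          have : 0 ≤ (1 - t) ^ 2 * (q - α ^ 2 - β ^ 2) := by positivity
          nlinarith [pow_pos h 2]
      have : 0 < u ^ 2 + v ^ 2 + c 2 ^ 2 *
          ((1 - t) ^ 2 * (q - α ^ 2 - β ^ 2) + 2 * (1 - t) * t * r + t ^ 2) := by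
        by_cases h2 : c 2 = 0
        · have : c 0 ≠ 0 ∨ c 1 ≠ 0 := by
            by_contra h
            simp only [not_or, not_not] at h
            exact hc (funext fun i => by fin_cases i <;> simp [h.1, h.2, h2])
          simp only [hu, hv, h2]
          rcases this with h | h <;> nlinarith [sq_pos_of_ne_zero h, sq_nonneg (c 0), sq_nonneg (c 1)]
        · nlinarith [mul_pos (sq_pos_of_ne_zero h2) hA, sq_nonneg u, sq_nonneg v]
      linear_combination this
    · intro x c hc t ht
      have h1 := hpos x c hc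
      have h2 := hpair x c hc
      have h3 : 0 < ∑ i, ∑ j, c i * c j * wedge (B i) (B j) := by
        obtain ⟨i, hi⟩ := Function.ne_iff.1 hc
        simp only [hG, mul_ite, mul_one, mul_zero, Finset.sum_ite_eq, Finset.mem_univ, if_true]
        exact Finset.sum_pos' (fun j _ => mul_self_nonneg _)
          ⟨i, Finset.mem_univ _, mul_self_pos.2 hi⟩
      rw [sum_wedge c (fun i => w i x) fun j => w j x] at h1
      rw [sum_wedge c (fun i => w i x) B] at h2
      rw [sum_wedge c B B] at h3
      rw [sum_wedge c (fun i => Φ t i x) fun j => Φ t j x]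
      have e : c 0 • Φ t 0 x + c 1 • Φ t 1 x + c 2 • Φ t 2 x =
          (1 - t) • (c 0 • w 0 x + c 1 • w 1 x + c 2 • w 2 x) +
            t • (c 0 • B 0 + c 1 • B 1 + c 2 • B 2) := by
        simp only [Φ]; module
      rw [e]
      generalize c 0 • w 0 x + c 1 • w 1 x + c 2 • w 2 x = E at h1 h2 ⊢
      generalize c 0 • B 0 + c 1 • B 1 + c 2 • B 2 = F at h2 h3 ⊢
      simp only [wedge_add_left, wedge_add_right, wedge_smul_left, wedge_smul_right,
        wedge_comm F E]
      obtain ⟨ht0, ht1⟩ := ht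
      rcases eq_or_lt_of_le ht0 with h | h
      · rw [← h]; nlinarith
      · have : 0 ≤ (1 - t) * ((1 - t) * wedge E E) := by
          have := sub_nonneg.2 ht1; positivity
        have : 0 ≤ (1 - t) * (t * wedge E F) := by
          have := sub_nonneg.2 ht1; positivity
        nlinarith [mul_pos (mul_pos h h) h3]
  refine ⟨Φ, fun i a b => ?_, by funext i x; simp [Φ], fun t ht => ⟨⟨fun i => ?_,
    fun x c hc => key x c hc t ht⟩, fun i => ?_⟩, fun _ => 1 / 2, fun _ => by norm_num,
    fun x i j => ?_⟩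
  · simp only [Φ, Matrix.add_apply, Matrix.smul_apply, smul_eq_mul]
    exact ((contDiff_const.sub contDiff_fst).mul (((hcl i).1 a b).comp contDiff_snd)).add
      (contDiff_fst.mul contDiff_const)
  · obtain ⟨hs, hk, hp, hd⟩ := hcl i
    refine ⟨fun a b => ?_, fun x a b => ?_, fun x k => by simp [Φ, hp], fun x a b c => ?_⟩
    · simp only [Φ, Matrix.add_apply, Matrix.smul_apply, smul_eq_mul]
      exact (contDiff_const.mul (hs a b)).add contDiff_const
    · simp [Φ, hk x a b, hBskew i a b]; ring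
    · have hdf : ∀ a b, DifferentiableAt ℝ (fun y => w i y a b) x := fun a b =>
        ((hs a b).differentiable (by simp)) x
      simp only [Φ, Matrix.add_apply, Matrix.smul_apply, smul_eq_mul, fderiv_add_const,
        fderiv_const_mul (hdf _ _), FunLike.coe_smul, Pi.smul_apply, smul_eq_mul]
      linear_combination (1 - t) * hd x a b c
  · ext a b
    simp only [Φ, period, Matrix.of_apply, Matrix.add_apply, Matrix.smul_apply, smul_eq_mul]
    rw [integral_add ((hcw i a b).integrableOn_Icc.const_mul _)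
      continuous_const.integrableOn_Icc, integral_const_mul, setIntegral_const, hvol]
    simp [B, period]; ring
  · simp [Φ, hG]

end Vale.Agent.P247
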